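import Crest.Agent.N255.En.TmD_Mg
import Crest.Agent.N255.En.MyD
import Crest.Agent.N255.Ma.GeoA

-- ▼ part N233/Lo/PlD
section

/-!
# Row 233 (helper12): quadratic labels and the degree number for `ps X`
-/

set_option autoImplicit false

noncomputable section

namespace Crest.Agent.N233.Lo

open Crest.Agent.N255 Crest.Agent.N255.Ch Crest.Agent.N255.En Crest.Agent.N255.Pt Crest.Agent.N255.Lv

attribute [local irreducible] Pb.ixc

variable {S : Type} [DecidableEq S] [MulAction Ma.F3 S] [Fact NevS] {w : Wl (Fin 3) S}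

/-- **the quadratic labels of `ps X`** -/
def gmPs {Γ : SimpleGraph S} (h : w.Γ = Γ) [Inv Ma.F3 Γ] {col : S → Fin 4} (hp : Pb.Pr Γ col)
    (hc : ∀ (f : Ma.F3) v, col (f • v) = col v) {m : En.Md w} (L : Ma.Gm w m) :
    Ma.Gm (w.psOf h) (Pb.mdPs w h hp hc m) :=
  Pl.gm (ap := ap col) ⟨(Pb.swPs w h hp hc).ap_smul, fun _ _ => (Pb.swPs w h hp hc).ap_cl,
    fun _ _ => (Pb.swPs w h hp hc).ap_nB⟩ L _ fun _ _ _ => rfl

omit [Fact NevS] in
/-- **the degree number of `ps X`** -/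
theorem p2_ps (hb : BlkS) {F : Type} [Group F] [MulAction F (Nd (Fin 3))] [MulAction F (Ed (Fin 3))]
    {M : Ce.Mir S (Fin 4) F (Nd (Fin 3)) (Ed (Fin 3))} {L : Loc M} (h : Wm w L) (m : En.Md w)
    (e : Ed (Fin 3)) : Md.p2 (mps M) e ((locPs hb L).ω e) (fun a b c =>
      m.mer e (ap M.col a) (ap M.col b) * m.mer (rev e) (ap M.col b) (ap M.col c)) =
      (qiM hb M).σ ∅ * Md.p2 M e (L.ω e) fun a b c => m.mer e a b * m.mer (rev e) b c :=
  (qiM hb M).per2 (φ := fun a b c => m.mer e a b * m.mer (rev e) b c) (ap := ap M.col)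
    (fun a => ap_mem M.col a) (mps M).col_ne M.col_ne (L.cω e).sup (L.cω e).cyc (Sb.z2T (h := h) m e)

omit [Fact NevS] in
theorem p2_psD (hb : BlkS) : ∃ u : ℤˣ, ∀ e, Md.p2 (mps Da.D.mir) e ((locPs hb Da.loc).ω e)
    (fun a b c => md.mer e (ap Da.D.mir.col a) (ap Da.D.mir.col b) *
      md.mer (rev e) (ap Da.D.mir.col b) (ap Da.D.mir.col c)) = u := by
  rcases (qiM hb Da.D.mir).σ_empty with k | k
  · exact ⟨-1, fun e => by rw [p2_ps hb wm md e, k, md_mer, p2_mr]; rfl⟩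
  · exact ⟨1, fun e => by rw [p2_ps hb wm md e, k, md_mer, p2_mr]; rfl⟩

end Crest.Agent.N233.Lo

end
end

-- ▼ part N233/Ma/GeoP

/-!
# Row 233 (helper62): the geometric input of the producer for the subdivided model
-/

set_option autoImplicit false

noncomputable section

namespace Crest.Agent.N233.Ma.Gp

open Crest.Agent.N255 Crest.Agent.N255.Ma Crest.Agent.N255.En Crest.Agent.N255.Uc Lo

attribute [local irreducible] Pb.ixc

/-- the local structure of the subdivided model -/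
def locP : Ch.Loc (mps Da.D.mir) := locPs blkS Da.loc

theorem geo {G : Subgroup (mps Da.D.mir).G} [G.FiniteIndex] {T : Type} [TopologicalSpace T]
    [MulAction G T] (g : GM 4 G T) (F : Subgroup F3) (hF : ∀ f ∈ F, Fa.inF (mps Da.D.mir) f ∈ G) :
    HasGeo F T := by
  have : Lo.Inv F3 Da.D.mir.Γ := wl.inv_of_eq tmD.Γ_eq
  have : Nonempty (PG Da.D.mir.Γ) := ⟨(wl.psOf tmD.Γ_eq).T_ne ⟨1, 0, true⟩ |>.choose⟩
  obtain ⟨u, hu⟩ := p2_psD blkS
  exact geoG1 (tmP tmD) locP (H := locP.cham ⟨1, 0, true⟩) rfl rfl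
    (gmPs tmD.Γ_eq (mir_pr Da.D.mir) (Da.D.mir.col_ρ) gmD) u hu g F hF

/-- **the geometric side of row 233** -/
theorem geoP : ∀ (G' : Subgroup (mps Da.D.mir).G) [G'.FiniteIndex] (F : Subgroup F3) [F.FiniteIndex],
    (∀ g : (mps Da.D.mir).G, g.1.left = 1 → g.1.right ∈ F → g ∈ G') → (∀ g ∈ G', g.1.right ∈ F) →
    ∀ (T : Type) [TopologicalSpace T] [MulAction G' T], GM 4 G' T → HasGeo F T :=
  fun _ _ F _ h _ _ _ _ g => geo g F fun _ hf => h _ rfl hf

end Crest.Agent.N233.Ma.Gp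

end
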