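import Crest.Agent.N233.Ma.No
import Crest.Agent.N233.Hi.Fin_Mg
import Crest.Agent.N233.Pc.In2
import Crest.Agent.N233.Cd.Frs_Mg
import Crest.Agent.N233.Lp.Ins

/-!
# Row 233 (helper26): the master theorem
-/

set_option autoImplicit false
open Set

noncomputable section

namespace Crest.Agent.N233.Ma

open Crest.Agent.N255 Uc Ra Dv Wu Wu.I Pc

attribute [local irreducible] Pb.ixc

/-- the subdivided mirror model -/
abbrev MP := Lo.mps Da.D.mir

/-- the action of the even elements -/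
abbrev ρ2 : In.F2 →* (Γ ≃g Γ) := rn ρ3 In.χ 2

theorem ρ3_eq : ρ3 = MP.ρ := MonoidHom.ext fun _ => RelIso.ext fun _ => rfl

/-- local cohomology of the subdivided model -/
def LocS : Prop := Nonempty (Ch.Loc MP)

/-- the geometric side -/
def GeoP : Prop := GeoM MP

theorem finS (L : LocS) : FinA ρ2 := fun G _ n =>
  haveI := fi2
  have : (In.F2).subtype.range.FiniteIndex := by rwa [Subgroup.range_subtype]
  L.elim fun L => by
    classical
    exact Hi.finD Da.D hX In.F2.subtype ρ2 (fun f a => hρ f a) In.F2.subtype_injective G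
      (Lp.psmD Da.D L) n

theorem frS (L : LocS) : Rr.Fr ρ2 :=
  haveI := fi2
  L.elim fun L => Cd.fr_res hX ρ3 hρ (Gn In.χ 2) (Lp.hyD Da.D L)

theorem fg2 : Group.FG (G0 ρ2) := by
  obtain ⟨S, hS, -⟩ := hy
  exact Group.fg_def.2 ⟨S, hS⟩

theorem noS (hP : N255.Ma.PrdS) (hG : GeoP) : No ρ3 In.χ :=
  ρ3_eq ▸ no_of_geo MP In.χ 2 (by simp [In.χ]) hP hG

/-- **row 233** -/
theorem both_of (hL : LocS) (hG : GeoP) (hP : N255.Ma.PrdS) : S60 ∧ S61 :=
  haveI := cnt
  haveI := fg2
  ((P In.fl).cmb (nul In.fl)).elim fun c =>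
    both_gen (fillI In.fl) c χτ hy (Rr.code (frS hL) (finS hL)) (noS hP hG)

end Crest.Agent.N233.Ma

end
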